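import Mathlib

/-! Every nontrivial unital C*-algebra has a unital representation on a nonzero Hilbert space. -/

namespace Vale.Agent.P083
open scoped ComplexOrder InnerProductSpace

universe u

lemma state_real {B : Type u} [CStarAlgebra B] [Nontrivial B] (φ : B →L[ℂ] ℂ) (h : ‖φ‖ = 1)
    (h1 : φ 1 = 1) {a : B} (ha : IsSelfAdjoint a) : (φ a).im = 0 := by
  have key : ∀ t : ℝ, ((φ a).im + t) ^ 2 ≤ ‖a‖ ^ 2 + t ^ 2 := by
    intro t
    have e1 : star (a + ((t : ℂ) * Complex.I) • (1 : B)) * (a + ((t : ℂ) * Complex.I) • (1 : B)) =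
        star a * a + ((t : ℂ) ^ 2) • (1 : B) := by
      have : (t : ℂ) ^ 2 = star ((t : ℂ) * Complex.I) * ((t : ℂ) * Complex.I) := by
        simp only [star_mul', Complex.star_def, Complex.conj_ofReal, Complex.conj_I]
        linear_combination (t : ℂ) ^ 2 * Complex.I_mul_I
      have e : star ((t : ℂ) * Complex.I) = -((t : ℂ) * Complex.I) := by simp
      rw [this, star_add, star_smul, star_one, ha.star_eq, e]
      simp only [add_mul, mul_add, smul_mul_assoc, mul_smul_comm, one_mul, mul_one, smul_smul,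
        neg_smul, neg_mul, mul_neg, smul_neg, smul_add]
      abel
    have e2 : ‖a + ((t : ℂ) * Complex.I) • (1 : B)‖ ^ 2 ≤ ‖a‖ ^ 2 + t ^ 2 := by
      rw [sq, ← CStarRing.norm_star_mul_self, e1]
      refine (norm_add_le _ _).trans (le_of_eq ?_)
      rw [CStarRing.norm_star_mul_self, norm_smul, norm_one, mul_one, norm_pow, Complex.norm_real,
        Real.norm_eq_abs, sq_abs, sq ‖a‖]
    have e3 := φ.le_opNorm (a + ((t : ℂ) * Complex.I) • (1 : B))
    rw [h, one_mul, map_add, map_smul, h1, smul_eq_mul, mul_one] at e3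
    have e4 := Complex.abs_im_le_norm (φ a + (t : ℂ) * Complex.I)
    simp only [Complex.add_im, Complex.mul_im, Complex.ofReal_re, Complex.I_im, mul_one,
      Complex.ofReal_im, Complex.I_re, mul_zero, add_zero] at e4
    rw [← sq_abs]
    exact (pow_le_pow_left₀ (abs_nonneg _) (e4.trans e3) 2).trans e2
  by_contra hne
  have := key ((‖a‖ ^ 2 + 1) / (2 * (φ a).im))
  have e : (φ a).im * ((‖a‖ ^ 2 + 1) / (2 * (φ a).im)) = (‖a‖ ^ 2 + 1) / 2 := by field_simp
  nlinarith [sq_nonneg (φ a).im]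

theorem exists_rep (B : Type u) [CStarAlgebra B] [Nontrivial B] :
    ∃ (H : Type u) (_ : NormedAddCommGroup H) (_ : InnerProductSpace ℂ H) (_ : CompleteSpace H)
      (_ : B →⋆ₐ[ℂ] (H →L[ℂ] H)) (η : H), ‖η‖ = 1 := by
  obtain ⟨φ, h, h1⟩ := exists_dual_vector ℂ (1 : B) (by simp)
  rw [norm_one, RCLike.ofReal_one] at h1
  let _ := CStarAlgebra.spectralOrder B
  let _ := CStarAlgebra.spectralOrderedRing B
  have hpos : ∀ a : B, 0 ≤ a → 0 ≤ φ a := by
    intro a ha
    have h2 := state_real φ h h1 (IsSelfAdjoint.of_nonneg ha)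
    have h3 : ‖algebraMap ℝ B ‖a‖ - a‖ ≤ ‖a‖ := by
      rw [CStarAlgebra.norm_le_iff_le_algebraMap _ (norm_nonneg a)
        (sub_nonneg.2 (IsSelfAdjoint.of_nonneg ha).le_algebraMap_norm_self)]
      exact sub_le_self _ ha
    have h4 := φ.le_opNorm (algebraMap ℝ B ‖a‖ - a)
    rw [h, one_mul, map_sub, Algebra.algebraMap_eq_smul_one, ← Complex.coe_smul, map_smul, h1,
      smul_eq_mul, mul_one, Complex.coe_smul, ← Algebra.algebraMap_eq_smul_one] at h4
    have h5 := (Complex.re_le_norm _).trans (h4.trans h3)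
    rw [Complex.sub_re, Complex.ofReal_re] at h5
    exact ⟨by simpa using h5, by simp [h2]⟩
  let f : B →ₚ[ℂ] ℂ := PositiveLinearMap.mk₀ φ.toLinearMap hpos
  refine ⟨f.GNS, inferInstance, inferInstance, inferInstance, f.gnsStarAlgHom,
    (f.toPreGNS 1 : f.PreGNS), ?_⟩
  rw [UniformSpace.Completion.norm_coe, PositiveLinearMap.preGNS_norm_def,
    PositiveLinearMap.ofPreGNS_toPreGNS, star_one, mul_one]
  show √(φ 1).re = 1
  rw [h1, Complex.one_re, Real.sqrt_one]

end Vale.Agent.P083
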